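import Vale.Agent.P014Y.Bo.Lv0
import Vale.Agent.P014Y.Md.Lv

/-! # P014Y, reducible planes: from the residual groups to all levels (helper24) -/

set_option autoImplicit false
set_option linter.all false

noncomputable section

namespace Vale.Agent.P014Y.Bo

open NumberField Matrix
open Vale.Agent.P022 (Qb GQ)
open Vale.Agent.P027M.S (Inert)
open Vale.Agent.P022D.W (dec inP_le_dec phi_mem exists_phi)
open Vale.Agent.P022E.GW (Ov Fb)
open Vale.Agent.P022K.G2 (In ex_lv')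
open Vale.Agent.P014U
open L2 (W M2)
open X4F (Rb)
open P004S (wp)
open Mu Mu.Lv

variable [Pp]

/-- the split plane -/
def dg (θ θ' : GQ →* F) : GQ →* M2 where
  toFun g := diagonal ![θ g, θ' g]
  map_one' := by ext i j; fin_cases i <;> fin_cases j <;> simp
  map_mul' g h := by ext i j; fin_cases i <;> fin_cases j <;> simp

theorem dg_mv (θ θ' : GQ →* F) (g : GQ) (v : W) : dg θ θ' g *ᵥ v = ![θ g * v 0, θ' g * v 1] :=
  funext fun i => by fin_cases i <;> simp [dg, mulVec_diagonal]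

/-- the conditions over the quadratic field; the line at `q` is given by `σ q` -/
structure Cd (a : GQ →* M2) (Γ : Subgroup GQ) (S Q : Finset ℕ) (σ : ℕ → GQ) (P₀ : Ideal (𝓞 Qb))
    (y : X) : Prop where
  cl : y ∈ Cl a Γ
  un : ∀ g ∈ Γ, g ∈ In ((S ∪ Q : Finset ℕ) : Set ℕ) → y g = 0
  ur : ∀ l ∈ S, l ≠ pp → ∀ P, Ov l P → y ∈ Ur a P
  tr : ∀ q ∈ Q, ∀ g, y (g * σ q * g⁻¹) = 0
  u0 : y ∈ Ur a P₀
  ot : ∀ P, Ov pp P → y ∈ Ot a (dec P) (Ur a P)

/-- no class, or a fixed vector and at most a line of classes -/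
def Kk2 (a : GQ →* M2) (Γ : Subgroup GQ) (S Q : Finset ℕ) (σ : ℕ → GQ) (P₀ : Ideal (𝓞 Qb)) : Prop :=
  (∀ y, Cd a Γ S Q σ P₀ y → y ∈ Bl a Γ) ∨ ¬ Nf a Γ ∧ ∀ y y', Cd a Γ S Q σ P₀ y → Cd a Γ S Q σ P₀ y' →
    ∃ s t : F, (s ≠ 0 ∨ t ≠ 0) ∧ s • y + t • y' ∈ Bl a Γ

/-- no fixed vector at the places above `q` -/
def Nq (a : GQ →* M2) (q : ℕ) : Prop := ∀ P, Ov q P → Nf a (dec P)

/-- **from the residual groups to all levels** -/
def LEV2 : Prop := ∀ a S (Γ : Subgroup GQ), Rs a S → ∀ N c χ (Q : Finset ℕ) (σ : ℕ → GQ) P₀, 0 < N →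
  Ly Γ S N c χ → 1 < c → Ov pp P₀ →
  (∀ q ∈ Q, q ∣ c ∧ (∃ P, Ov q P ∧ Fb q P (σ q)) ∧ a (σ q) = 1 ∧ ∀ g, pp ∣ χ (g * σ q * g⁻¹)) →
  (∀ q : ℕ, q.Prime → q ∣ c → q ∈ Q ∨ Nq a q) → Kk2 a Γ S Q σ P₀ → ∀ J ≤ pp ^ N,
  ∀ x ∈ Zx a Γ (S ∪ c.primeFactors) J χ P₀, ∀ g, tb J ^ 5 • x g = 0

/-- **from the split plane to the extension** -/
def TWS : Prop := ∀ (a : GQ →* M2) (θ θ' : GQ →* F) (v : W), v ≠ 0 → (∀ g, a g *ᵥ v = θ g • v) →
  (∀ g, (a g).det = θ g * θ' g) → ∀ Γ T J χ P k,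
  (∀ x ∈ Zx (dg θ θ') Γ T J χ P, ∀ g, tb J ^ k • x g = 0) →
  ∀ x ∈ Zx a Γ T J χ P, ∀ g, tb J ^ (k + k) • x g = 0

theorem lev2 : LEV2 := fun a S Γ r N c χ Q σ P n h c1 o qc tz kk J hJ => by
  obtain ⟨φ, f⟩ := exists_phi o.1 o.2.1 o.2.2
  obtain ⟨le, e⟩ := h.fro pp r.pm P o
  have un : ∀ {q P}, Ov q P → q ∣ c → ∀ i, Inert P i → a i = 1 := fun o d i b =>
    r.unr i ⟨_, (h.out _ o.1 d).1, _, o, b⟩
  have dv : ∀ {g}, pp ^ N ∣ χ g → (χ g : F) = 0 := fun d =>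
    (ZMod.natCast_eq_zero_iff _ _).2 ((dvd_pow_self pp n.ne').trans d)
  refine fun _ hx => Lev.core2 (fun x y z L u b => ?_) r.opn
    (fun g m => r.unr g (Ds.in_mono Finset.subset_union_left m)) n hJ h.add h.opn
    (fun g m ⟨l, k, Q, p, i⟩ => h.unr l Q p (fun d => k (by simp [p.1, d, h.c0])) g m i) le
    (fun g i => h.unr pp P o (fun d => (h.out pp pp_prime d).1 r.pm) g (le (inP_le_dec i)) i)
    (phi_mem o.1 o.2.1 f) (e φ f) hx
  have cd : Cd a Γ S Q σ P x := by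
    refine ⟨L.cl, fun g m ⟨l, k, P, o, i⟩ => ?_,
      fun l m ne P o => Gw.ur_lag dim url r.toR0 o ne ▸ h.ot n r.toR0 L o m, fun q m g => ?_,
      ⟨(L.mono le).cl, b⟩, fun P o => h.ot n r.toR0 L o r.pm⟩
    · by_cases d : l ∣ c
      · exact Lv.un_nf (L.mono ((h.out l o.1 d).2.1 P o)).cl o (h.md n o.1 d) (un o d)
          ((tz l o.1 d).resolve_left (fun e => k (by simp [e])) P o) i
      · exact u g m ⟨l, fun e => (Finset.mem_union.1 e).elim (fun e => k (by simp [e]))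
          fun e => d (Nat.dvd_of_mem_primeFactors e), P, o, i⟩
    · obtain ⟨d, ⟨P, o, f⟩, e1, e2⟩ := qc q m
      have o' := Ds.ov_sm o g
      obtain ⟨t, i, e⟩ := h.tau n o' d
      have := Md.l3_val (L.mono ((h.out q o.1 d).2.1 _ o')) o' (h.md n o.1 d) (un o' d) i
        (Ds.fb_sm f g) ((ZMod.natCast_eq_zero_iff _ _).2 (e2 g))
      rwa [e, one_smul, show a (g * σ q * g⁻¹) = 1 from
        (inferInstance : a.ker.Normal).conj_mem _ e1 g, one_mulVec, sub_self] at this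
  rcases kk with k | ⟨nf, k⟩
  · exact (Ds.mem_bl.1 (k x cd)).imp fun v e => ⟨0, fun g m => by simp [e g m]⟩
  obtain ⟨u, fx, u0⟩ : ∃ u : W, (∀ g ∈ Γ, a g *ᵥ u = u) ∧ u ≠ 0 := by
    simpa only [Nf, not_forall, exists_prop] using nf
  have cl : (fun g => (χ g : F) • u) ∈ Cl a Γ := ⟨fun g m j n => by
    simp only [L.ad g m j n, add_smul, mulVec_smul, fx g m], L.opn.imp fun U k =>
      ⟨k.1, fun w m n => by simp only [(k.2 w m n).1, zero_smul]⟩⟩
  have ur : ∀ l ∈ S, ∀ P, Ov l P → (fun g => (χ g : F) • u) ∈ Ur a P := fun l m P o =>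
    have le := (h.fro l m P o).1
    ⟨Ds.cl_mono cl le, Ds.mem_bl.2 ⟨0, fun g i => by
      rw [dv (h.unr l P o (fun d => (h.out l o.1 d).1 m) g (le (inP_le_dec i)) i)]; simp⟩⟩
  obtain ⟨s, t, ne, m⟩ := k x _ cd ⟨cl, fun g m ⟨l, k, P, o, i⟩ => by
      by_cases d : l ∣ c
      · exact absurd ((tz l o.1 d).resolve_left (fun e => k (by simp [e])) P o u fun g m =>
          fx g ((h.out l o.1 d).2.1 P o m)) u0
      · rw [dv (h.unr l P o d g m i), zero_smul],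
    fun l m _ => ur l m, fun q m g => by
      rw [(ZMod.natCast_eq_zero_iff _ _).2 ((qc q m).2.2.2 g), zero_smul],
    ur pp r.pm P o, fun P o => (url a pp P r.toR0 o).2.1 (ur pp r.pm P o)⟩
  obtain ⟨v, hv⟩ := Ds.mem_bl.1 m
  have s0 : s ≠ 0 := fun s0 => by
    have p := Nat.minFac_prime c1.ne'
    obtain ⟨Q, o⟩ := P022K.GW.Pl.ex_ov p
    obtain ⟨τ, i, e⟩ := h.tau n o c.minFac_dvd
    have := hv τ ((h.out _ p c.minFac_dvd).2.1 Q o (inP_le_dec i))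
    simp [s0, e, un o c.minFac_dvd τ i, u0] at this ne
    exact ne this
  refine ⟨s⁻¹ • v, -(s⁻¹ * t) • u, fun g m => ⟨by rw [mulVec_smul, fx g m], ?_⟩⟩
  have := congrArg (s⁻¹ • ·) (hv g m)
  simp only [Pi.add_apply, Pi.smul_apply, smul_add, smul_smul, inv_mul_cancel₀ s0, one_smul] at this
  rw [mulVec_smul, ← smul_sub, ← this]
  module

theorem two {R : Type} [CommRing R] (φ : F →+* R) {u : GQ → R} {τ : R} {a : GQ →* M2}
    {θ θ' : GQ →* F} {v : W} (v0 : v ≠ 0) (hv : ∀ g, a g *ᵥ v = θ g • v)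
    (hd : ∀ g, (a g).det = θ g * θ' g) {Γ : Subgroup GQ} {x : GQ → Fin 2 → R}
    (co : ∀ g ∈ Γ, ∀ h ∈ Γ, x (g * h) = x g + (u g • (a g).map φ) *ᵥ x h)
    (ex : ∀ f : (Fin 2 → R) → Fin 2 → R, f 0 = 0 → (∀ g ∈ Γ, ∀ h ∈ Γ, f (x (g * h)) =
      f (x g) + (u g • (dg θ θ' g).map φ) *ᵥ f (x h)) → ∀ g, τ • f (x g) = 0) (g : GQ) :
    (τ * τ) • x g = 0 := by
  obtain ⟨y, hy⟩ := L2.ex_y v v0
  have e1 : wp (φ ∘ v) (φ ∘ y) = 1 := by simpa [wp] using congrArg φ hy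
  have a1 : ∀ g, (a g).map φ *ᵥ (φ ∘ v) = φ (θ g) • (φ ∘ v) := fun g => funext fun j => by
    rw [← RingHom.map_mulVec, hv]; exact map_mul φ _ _
  have a2 : ∀ g x, wp (φ ∘ v) ((a g).map φ *ᵥ x) = φ (θ' g) * wp (φ ∘ v) x := fun g x => by
    have := P004S.wp_mulVec ((a g).map φ) (φ ∘ v) x
    rw [a1, P004S.wp_smul_left, ← RingHom.mapMatrix_apply, ← RingHom.map_det, hd, map_mul,
      mul_assoc] at this
    exact (((Group.isUnit g).map θ).map φ).mul_left_cancel this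
  generalize φ ∘ v = w at e1 a1 a2
  generalize φ ∘ y = w' at e1
  have dm : ∀ g (p : Fin 2 → R), (u g • (dg θ θ' g).map φ) *ᵥ p =
      u g • ![φ (θ g) * p 0, φ (θ' g) * p 1] := fun g p => by
    funext i
    fin_cases i <;> simp [dg, mulVec, dotProduct, mul_assoc]
  have k1 := fun g => congrFun (ex (fun p => ![0, wp w p]) (by simp [wp]) (fun g m h n => by
    rw [dm, co g m h n, smul_mulVec, P004S.wp_add_right, P004S.wp_smul_right, a2]
    funext i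
    fin_cases i <;> simp) g) 1
  have k2 : ∀ g, τ • x g = wp (τ • x g) w' • w := fun g => by
    have := k1 g
    funext i
    simp only [wp, Pi.smul_apply, smul_eq_mul, cons_val_one, cons_val_zero, Pi.zero_apply] at this e1 ⊢
    fin_cases i
    · show _ * x g 0 = _ * w 0
      linear_combination w' 0 * this - τ * x g 0 * e1
    · show _ * x g 1 = _ * w 1
      linear_combination w' 1 * this - τ * x g 1 * e1
  have k3 := congrFun (ex (fun p => ![wp (τ • p) w', 0]) (by simp [wp]) (fun g m h n => by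
    rw [dm, co g m h n, smul_mulVec, smul_add, smul_comm, ← mulVec_smul, k2 h, mulVec_smul, a1,
      ← k2 h]
    simp only [P004S.wp_add_left, P004S.wp_smul_left, e1]
    funext i
    fin_cases i <;> simp [mul_comm]) g) 0
  rw [mul_smul, k2, smul_smul]
  exact smul_eq_zero_of_left k3 _

theorem tws : TWS := fun a θ θ' v v0 hv hd Γ T J χ P k kl x hx g => by
  rw [pow_add]
  exact two _ v0 hv hd hx.1.coc (fun f z c => kl (fun g => f (x g)) ⟨⟨c, fun g m => by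
    simp only [hx.1.out g m, z], hx.1.lc.imp fun U e => ⟨e.1, fun u m => by simp only [e.2 u m, z]⟩,
    fun g m => by simp only [hx.1.unr g m, z]⟩, fun g m => by simp only [hx.2 g m, z]⟩) g

end Vale.Agent.P014Y.Bo
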