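import Vale.Agent.P014Y.Bo.Lv1
import Vale.Agent.P014Y.Mu.Dsc

/-! # P014Y, reducible planes: descent from the quadratic field (helper24) -/

set_option autoImplicit false
set_option linter.all false

noncomputable section

namespace Vale.Agent.P014Y.Bo

open NumberField Matrix
open scoped Classical Pointwise
open Vale.Agent.P022 (Qb GQ)
open Vale.Agent.P022D.W (dec inP_le_dec phi_mem)
open Vale.Agent.P022K.G2 (In)
open Vale.Agent.P014U
open L2 (W M2)
open X4S (Pl)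
open P004S (nu kn)
open Mu Mu.Ds

variable [Pp]

/-- at most one line of pairs -/
def Kl2 (a a' : GQ →* M2) (pl : Pl) (S Q : Finset ℕ) : Prop := ∃ z z' : X,
  ∀ x ∈ Rl a pl S Q, ∀ y ∈ Rl a' pl S Q, x + y ∈ Ur a (pl.P pp) →
    ∃ s : F, x - s • z ∈ Bl a ⊤ ∧ y - s • z' ∈ Bl a' ⊤

/-- descent from the quadratic field -/
def DSC2 : Prop := ∀ a (pl : Pl) (d : ℤ) (Γ : Subgroup GQ) (c : GQ) (S S' Q : Finset ℕ), Rs a S →
  Rs (tw d a) S' → S ⊆ S' → (∀ g, g ∈ Γ ↔ nu d g = 0) → c ∉ Γ → c * c = 1 →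
  (∀ q ∈ Q, q.Prime) → (∀ l ∈ S ∪ Q, Sq Γ l) →
  (Kl a (tw d a) pl S' Q ∨ ¬ Nf a Γ ∧ Kl2 a (tw d a) pl S' Q) → Kk2 a Γ S Q pl.σ (pl.P pp)

theorem tw_of {d : ℤ} {g : GQ} (a : GQ →* M2) (m : g ∈ kn d) : tw d a g = a g := by
  show (if nu d g = 0 then 1 else -1 : F) • a g = _
  rw [if_pos (show nu d g = 0 from m), one_smul]

theorem dsx {a : GQ →* M2} {pl : Pl} {d : ℤ} {c : GQ} {S S' Q : Finset ℕ} (r : Rs a S)
    (r' : Rs (tw d a) S') (le : S ⊆ S') (n : c ∉ kn d) (k : c * c = 1) (up : ∀ q ∈ Q, q.Prime)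
    (sq : ∀ l ∈ S ∪ Q, Sq (kn d) l) {y : X} (h : Cd a (kn d) S Q pl.σ (pl.P pp) y) :
    ∃ x ∈ Rl a pl S' Q, ∃ x' ∈ Rl (tw d a) pl S' Q, x + x' ∈ Ur a (pl.P pp) ∧
      ∀ g ∈ kn d, (x + x') g = ((2 : F) • y) g := by
  obtain ⟨hy, un, ur, vs, u0, ot⟩ := h
  have cc : ∀ P : Ideal (𝓞 Qb), c • c • P = P := fun P => by rw [smul_smul, k, one_smul]
  have t1 : ∀ g ∈ kn d, tw d a g = a g := fun g m => tw_of a m
  have ik : ∀ g ∈ In (S' : Set ℕ), g ∈ kn d := fun g m => by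
    by_contra e
    have := congrFun (congrFun (r'.unr g m) 0) 0
    change ((if nu d g = 0 then 1 else -1 : F) • a g) 0 0 = _ at this
    rw [if_neg (show ¬ nu d g = 0 from e), r.unr g (in_mono le m)] at this
    simp only [Matrix.smul_apply, one_apply_eq, smul_eq_mul, mul_one] at this
    exact two_ne (by linear_combination -this)
  have key : ∀ b : GQ →* M2, Rs b S' → (∀ g ∈ kn d, b g = a g) → (∃ s : F, b c = s • a c) →
      ex b d c y ∈ Rl b pl S' Q := fun b rb e ⟨s, es⟩ => by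
    have cl := ex_cl n k (cl_congr e (fun _ _ => rfl) hy)
    have ev : ∀ g ∈ kn d, ex b d c y g = (y + s • cj a c y) g := fun g m => by
      rw [ex_of m, Pi.add_apply, Pi.smul_apply, cj, cj, es, smul_mulVec]
    have z0 : ∀ g ∈ kn d, g ∈ In ((S ∪ Q : Finset ℕ) : Set ℕ) → ex b d c y g = 0 := fun g m i => by
      rw [ex_of m, cj, un g m i, un _ (kcj m c) (in_cj i c), mulVec_zero, add_zero]
    have op := pl.ov pp pp_prime
    have dp := sq pp (Finset.mem_union_left _ r.pm) _ op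
    refine ⟨⟨zg_of rb.opn (fun g m => rb.unr g (in_mono Finset.subset_union_left m)) cl
      fun g m => z0 g (ik g (in_mono Finset.subset_union_left m))
        (in_mono (Finset.union_subset_union_left le) m), ?_⟩,
      ot_congr (fun g m => e g (dp m)) (fun g m => ev g (dp m)) (add_mem (ot _ op)
        (Submodule.smul_mem _ s (cc (pl.P pp) ▸ ot_cj (ot _ (ov_sm op c)) c)))⟩
    simp only [SetLike.mem_coe, Submodule.mem_iInf, Lc]
    intro l m
    obtain ⟨ne, m⟩ := Finset.mem_erase.1 m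
    split_ifs with q
    · have o := pl.ov l (up l q)
      have sm := sq l (Finset.mem_union_right _ q) _ o (phi_mem o.1 o.2.1 (pl.fb l (up l q)))
      have v := vs l q 1
      have v' := vs l q c⁻¹
      rw [inv_one, one_mul, mul_one] at v
      rw [inv_inv] at v'
      exact ⟨cl_mono cl le_top, (mem_Vs b).2 ⟨0, by
        rw [ex_of sm, cj, v, v', mulVec_zero, mulVec_zero, sub_self, add_zero]⟩⟩
    have o := pl.ov l (rb.pr l ((Finset.mem_union.1 m).resolve_right q))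
    by_cases s : l ∈ S
    · have dl := sq l (Finset.mem_union_left _ s) _ o
      exact ur_congr (fun g m => e g (dl m)) (fun g m => ev g (dl m)) (add_mem (ur l s ne _ o)
        (Submodule.smul_mem _ _ (cc (pl.P l) ▸ ur_cj (ur l s ne _ (ov_sm o c)) c)))
    · exact ⟨cl_mono cl le_top, bl_two (d := d) (cl_mono cl le_top) fun g i m =>
        ⟨(e g m).trans (r.unr g ⟨l, s, _, o, i⟩), z0 g m ⟨l, by simp [s, q], _, o, i⟩⟩⟩
  have tc : tw d a c = (-1 : F) • a c := by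
    show (if nu d c = 0 then 1 else -1 : F) • a c = _
    rw [if_neg (show ¬ nu d c = 0 from n)]
  have e2 : ∀ g ∈ kn d, (ex a d c y + ex (tw d a) d c y) g = ((2 : F) • y) g := fun g m => by
    rw [Pi.add_apply, ex_of m, ex_of m, cj, cj, tc, smul_mulVec, Pi.smul_apply]
    module
  have dp := sq pp (Finset.mem_union_left _ r.pm) _ (pl.ov pp pp_prime)
  exact ⟨_, key a ⟨r.toR0, r'.pm, r'.pr, fun g m => r.unr g (in_mono le m)⟩ (fun _ _ => rfl)
    ⟨1, (one_smul _ _).symm⟩, _, key _ r' t1 ⟨_, tc⟩,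
    ur_congr (fun _ _ => rfl) (fun g m => e2 g (dp m)) (Submodule.smul_mem _ _ u0), e2⟩

/-- **row DSC2** -/
theorem dsc2 : DSC2 := by
  intro a pl d Γ c S S' Q r r' le hΓ n k up sq kl
  obtain rfl : Γ = kn d := Subgroup.ext hΓ
  have key : ∀ z z' : X, (∀ x ∈ Rl a pl S' Q, ∀ y ∈ Rl (tw d a) pl S' Q, x + y ∈ Ur a (pl.P pp) →
      ∃ s : F, x - s • z ∈ Bl a ⊤ ∧ y - s • z' ∈ Bl (tw d a) ⊤) →
      ∀ y, Cd a (kn d) S Q pl.σ (pl.P pp) y → ∃ s : F, y - s • (z + z') ∈ Bl a (kn d) := by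
    intro z z' kl y h
    obtain ⟨x, p, x', p', u, e⟩ := dsx r r' le n k up sq h
    obtain ⟨s, q, q'⟩ := kl x p x' p' u
    obtain ⟨v, hv⟩ := mem_bl.1 q
    obtain ⟨w, hw⟩ := mem_bl.1 q'
    refine ⟨(2 : F)⁻¹ * s, mem_bl.2 ⟨(2 : F)⁻¹ • (v + w), fun g m => ?_⟩⟩
    have e1 := hv g trivial
    have e2 := hw g trivial
    have e3 := congrArg ((2 : F)⁻¹ • ·) (e g m)
    rw [tw_of a m] at e2
    simp only [Pi.add_apply, Pi.smul_apply, Pi.sub_apply, smul_smul, inv_mul_cancel₀ two_ne,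
      one_smul] at e1 e2 e3 ⊢
    rw [mulVec_smul, mulVec_add, ← smul_sub, add_sub_add_comm, ← e1, ← e2, ← e3]
    module
  rcases kl with kl | ⟨nf, z, z', kl⟩
  · exact Or.inl fun y h => by
      simpa using key 0 0 (fun x p y q u => ⟨0, by simpa using kl x p y q u⟩) y h
  · have hz := key z z' kl
    refine Or.inr ⟨nf, fun y y' h h' => ?_⟩
    obtain ⟨s, p⟩ := hz y h
    obtain ⟨t, q⟩ := hz y' h'
    by_cases s0 : s = 0
    · exact ⟨1, 0, Or.inl one_ne_zero, by simpa [s0] using p⟩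
    refine ⟨t, -s, Or.inr (neg_ne_zero.2 s0), ?_⟩
    convert sub_mem (Submodule.smul_mem _ t p) (Submodule.smul_mem _ s q) using 1
    module

end Vale.Agent.P014Y.Bo
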