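import Vale.Agent.P014Y.Mu.Lv1

/-! # P014Y, reducible planes: the filtration by the powers of `X`, with fixed vectors (helper24) -/

set_option autoImplicit false
set_option linter.all false

noncomputable section

namespace Vale.Agent.P014Y.Lev

open NumberField Matrix PowerSeries
open Vale.Agent.P022 (Qb GQ)
open Vale.Agent.P022.H443 (inP)
open Vale.Agent.P027M.S (Inert)
open Vale.Agent.P022D.W (dec inP_le_dec)
open Vale.Agent.P022K.G2 (In ex_lv')
open Vale.Agent.P014U
open L2 (W M2)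
open X4F (Rb)
open Vale.Agent.P014Y.Mu hiding X
open Mu.Lv (L3)
open Mu.Ds (mem_bl)

variable [Pp] {a : GQ →* M2} {J N m : ℕ} {χ : GQ → ℕ} {Γ : Subgroup GQ} {T : Finset ℕ}
  {P : Ideal (𝓞 Qb)} {φ g : GQ}

theorem bin (n : ℕ) : ∃ s : PS, (1 + X) ^ n = 1 + X * (C (n : F) + X * s) := by
  induction n with
  | zero => exact ⟨0, by simp⟩
  | succ n ih =>
    obtain ⟨s, e⟩ := ih
    exact ⟨s + C (n : F) + X * s, by rw [pow_succ, e, Nat.cast_succ, map_add, map_one]; ring⟩

/-- **all levels** -/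
theorem core2 (H : ∀ x y z, L3 a (fun g => χ g) Γ x y z → (∀ g ∈ Γ, g ∈ In (T : Set ℕ) → x g = 0) →
      x ∈ Bl a (inP P) → ∃ v u, ∀ g ∈ Γ, a g *ᵥ u = u ∧ x g = a g *ᵥ v - v + (χ g : F) • u)
    (ko : IsOpen (a.ker : Set GQ))
    (ua : ∀ g ∈ In (T : Set ℕ), a g = 1) (N0 : 0 < N) (hJ : J ≤ pp ^ N)
    (ad : ∀ g ∈ Γ, ∀ h ∈ Γ, χ (g * h) ≡ χ g + χ h [MOD pp ^ N])
    (op : ∃ U : Subgroup GQ, IsOpen (U : Set GQ) ∧ ∀ g ∈ Γ, g ∈ U → pp ^ N ∣ χ g)
    (un : ∀ g ∈ Γ, g ∈ In (T : Set ℕ) → pp ^ N ∣ χ g) (le : dec P ≤ Γ)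
    (i0 : ∀ g, Inert P g → pp ^ N ∣ χ g) (s : φ ∈ dec P) (ne : ¬ pp ∣ χ φ)
    {x : GQ → Fin 2 → Rb J} (hx : x ∈ Zx a Γ T J χ P) (g : GQ) : tb J ^ 5 • x g = 0 := by
  refine (funext fun i => by simp [pow_succ, mul_assoc] : _ = tb J ^ 4 • (tb J • x) g).trans ?_
  have st : ∀ g, ∃ w : Fin 2 → PS, tb J • x g = qv J ((X : PS) ^ (0 + 1) • w) := fun g =>
    ⟨fun i => (x g i).out, funext fun i => by simp [qv, tb]⟩
  have hx' : tb J • x ∈ Zx a Γ T J χ P := by
    obtain ⟨⟨co, out, op, e2⟩, e3⟩ := hx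
    have z : ∀ g, x g = 0 → (tb J • x) g = 0 := fun g e => by rw [Pi.smul_apply, e, smul_zero]
    exact ⟨⟨fun g k h n => by simp only [Pi.smul_apply, co g k h n, smul_add, P004F.Pr.ac_smul],
      fun g k => z g (out g k), op.imp fun U k => ⟨k.1, fun w n => z w (k.2 w n)⟩,
      fun g k => z g (e2 g k)⟩, fun g k => z g (e3 g k)⟩
  change ∀ g, ∃ w, (tb J • x) g = _ at st
  generalize tb J • x = x at st hx' ⊢
  obtain ⟨⟨co, out, ⟨U, hU, e1⟩, e2⟩, e3⟩ := hx'
  obtain ⟨V, hV, e4⟩ := op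
  obtain ⟨W, hW, e5⟩ := ex_lv' (H := a.ker ⊓ (U ⊓ V)) (ko.inter (hU.inter hV))
  have b0 : ∀ g, pp ^ N ∣ χ g → ∀ p, qv J (bg a (χ g) g *ᵥ p) = qv J ((a g).map C *ᵥ p) :=
    fun g d p => by rw [bg_eq hJ (Nat.modEq_zero_iff_dvd.2 d), bg, pow_zero, one_smul]
  have key : ∀ m, m ≤ J - 3 → ∃ μ : Fin 2 → PS, ∀ g ∈ Γ, ∃ w : Fin 2 → PS,
      x g = qv J (bg a (χ g) g *ᵥ μ - μ + (X : PS) ^ (m + 1) • w) := fun m => by
    induction m with
    | zero => exact fun _ => ⟨0, fun g _ => by simpa using st g⟩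
    | succ m' ih =>
      intro hm
      obtain ⟨μ, hμ⟩ := ih (by omega)
      obtain ⟨m, em⟩ : ∃ m, m = m' + 1 := ⟨_, rfl⟩
      rw [← em] at hμ ⊢
      choose! w hw using hμ
      have z : ∀ g ∈ Γ, x g = 0 → pp ^ N ∣ χ g → ∀ i < 3,
          ci i (w g) = a g *ᵥ -ci (i + m) μ - -ci (i + m) μ := fun g k p q i t => by
        have := hw g k
        rw [p, map_add, map_sub, b0 g q, ← map_sub, ← map_add, ← map_zero (qv J)] at this
        have := ci_eq this (i := i + m) (by omega)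
        rw [map_add, map_sub, ci_X, ci_C, map_zero] at this
        rw [mulVec_neg]
        linear_combination -this
      have z' : ∀ g ∈ Γ, x g = 0 → pp ^ N ∣ χ g → a g = 1 → ∀ i < 3, ci i (w g) = 0 :=
        fun g k p q r i t => by rw [z g k p q i t, r, one_mulVec, sub_self]
      have c : ∀ g ∈ Γ, ∀ h ∈ Γ, ∀ i < 3, ci i (w (g * h)) =
          ci i (w g) + ci i ((1 + X : PS) ^ χ g • ((a g).map C *ᵥ w h)) := fun g k h n i t => by
        have := co g k h n
        rw [hw _ (mul_mem k n), hw g k, hw h n, map_add, map_sub, bg_eq hJ (ad g k h n), bg_mul]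
          at this
        change _ = _ + ag a J χ g *ᵥ _ at this
        simp only [ag_mv, mulVec_add, mulVec_sub, mulVec_smul, map_add, map_sub] at this
        have e : qv J ((X : PS) ^ m • w (g * h)) =
            qv J ((X : PS) ^ m • (w g + bg a (χ g) g *ᵥ w h)) := by
          rw [smul_add, map_add]
          linear_combination this
        simpa only [ci_X, map_add, bg, smul_mulVec] using ci_eq e (i := i + m) (by omega)
      have dv : ∀ {u v : ℕ}, u ≡ v [MOD pp ^ N] → (u : F) = v := fun e =>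
        (ZMod.natCast_eq_natCast_iff _ _ _).2 (e.of_dvd (dvd_pow_self pp N0.ne'))
      refine (H (fun g => ci 0 (w g)) (fun g => ci 1 (w g))
        (fun g => (2 : F) • ci 2 (w g) + ci 1 (w g))
        ⟨fun g k h n => by rw [dv (ad g k h n), Nat.cast_add], fun g k h n => ?_,
          fun g k h n => ?_, fun g k h n => ?_, W, hW, fun g k n => ?_⟩
        (fun g k i => z' g k (e2 g i) (un g k i) (ua g i) 0 three_pos)
        (mem_bl.2 ⟨_, fun g i => z g (le (inP_le_dec i)) (e3 g (inP_le_dec i)) (i0 g i) 0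
          three_pos⟩)).elim fun v ⟨u, hv⟩ => ?_
      rotate_right
      · refine ⟨μ + (X : PS) ^ m • (fun i => C (v i)) + (X : PS) ^ m' • fun i => C (u i),
          fun g k => ?_⟩
        obtain ⟨s, hs⟩ := bin (χ g)
        have e0 : ∀ v : L2.W, ci 0 (fun i => C (v i)) = v := fun v => funext fun i => coeff_zero_C _
        have : ∀ i, X ∣ (w g - (bg a (χ g) g *ᵥ (fun i => C (v i)) - fun i => C (v i)) -
            (C (χ g : F) + X * s : PS) • fun i => C (u i)) i := fun i => X_dvd_iff.2 (by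
          have : ci 0 (w g - (bg a (χ g) g *ᵥ (fun i => C (v i)) - fun i => C (v i))) =
              (χ g : F) • u := by
            rw [map_sub, map_sub, bg, smul_mulVec, (tr3 _ _).1, ci_C, e0, (hv g k).2,
              add_sub_cancel_left]
          have : constantCoeff _ = _ :=
            (coeff_zero_eq_constantCoeff_apply ((w g - _ : Fin 2 → PS) i)).symm.trans (congrFun this i)
          rw [Pi.sub_apply, map_sub, this]
          simp)
        choose w' e using this
        refine ⟨w', (hw g k).trans (congrArg _ ?_)⟩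
        have b : bg a (χ g) g *ᵥ (fun i => C (u i)) = (1 + X : PS) ^ χ g • fun i => C (u i) := by
          rw [bg, smul_mulVec]
          congr 1
          funext i
          conv_rhs => rw [← (hv g k).1]
          exact ((C (R := F)).map_mulVec _ u i).symm
        rw [pow_succ, mul_smul, show (X : PS) • w' = _ from (funext e).symm, mulVec_add, mulVec_add,
          mulVec_smul, mulVec_smul, b, hs, em]
        funext i
        simp only [Pi.add_apply, Pi.sub_apply, Pi.smul_apply, smul_eq_mul]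
        ring
      · simp only [c g k h n 0 three_pos, (tr3 _ _).1, ci_C]
      · simp only [c g k h n 1 (by omega), (tr3 _ _).2.1, ci_C, mulVec_add, mulVec_smul]
      · simp only [c g k h n 1 (by omega), c g k h n 2 (by omega), (tr3 _ _).2.1, smul_add,
          (tr3 _ _).2.2, ci_C, mulVec_add, mulVec_smul]
        module
      · obtain ⟨p, q, r⟩ := e5 n
        have := z' g k (e1 g q) (e4 g k r) p
        exact ⟨(dv (Nat.modEq_zero_iff_dvd.2 (e4 g k r))).trans Nat.cast_zero, this 0 three_pos,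
          this 1 (by omega), by rw [this 1 (by omega), this 2 (by omega), smul_zero, add_zero]⟩
  by_cases k : g ∈ Γ
  swap
  · rw [out g k, smul_zero]
  obtain ⟨μ, hμ⟩ := key _ le_rfl
  have t0 : ∀ p, qv J ((X : PS) ^ 2 • (X : PS) ^ (J - 3 + 1) • p) = 0 := fun p => by
    rw [smul_smul, map_smulₛₗ, ← pow_add, show mq J _ = 0 from Ideal.Quotient.eq_zero_iff_mem.2
      (Ideal.mem_span_singleton.2 (pow_dvd_pow _ (by omega)))]
    exact funext fun i => zero_mul _
  have t1 : qv J ((X : PS) ^ 4 • μ) = 0 := by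
    obtain ⟨w, e⟩ := hμ φ (le s)
    obtain ⟨r, hr⟩ := det_dvd (a := a) ne φ
    have e' : qv J ((bg a (χ φ) φ - 1) *ᵥ (X : PS) ^ 2 • μ) = 0 := by
      have := congrArg (mq J (X ^ 2) • ·) e
      simp only [e3 φ s, smul_zero] at this
      rw [← map_smulₛₗ (qv J), smul_add, map_add, t0, add_zero] at this
      rw [mulVec_smul, sub_mulVec, one_mulVec, this]
    generalize bg a (χ φ) φ - 1 = B at hr e'
    have : (X : PS) ^ 4 • μ = r • (B.adjugate *ᵥ (B *ᵥ (X : PS) ^ 2 • μ)) := by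
      rw [mulVec_mulVec, adjugate_mul, smul_mulVec, one_mulVec, smul_smul, smul_smul, mul_comm r,
        ← hr, ← pow_add]
    rw [this, map_smulₛₗ, show ∀ p, qv J (B.adjugate *ᵥ p) = B.adjugate.map (mq J) *ᵥ qv J p from
      fun p => funext fun i => (mq J).map_mulVec _ p i, e', mulVec_zero, smul_zero]
  obtain ⟨w, e⟩ := hμ g k
  rw [e, tb, ← map_pow, ← map_smulₛₗ (qv J), smul_add, smul_sub, ← mulVec_smul, map_add, map_sub,
    ← ag_mv, t1, mulVec_zero, sub_self, zero_add, show 4 = 2 + 2 from rfl, pow_add, mul_smul,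
    map_smulₛₗ, t0, smul_zero]

end Vale.Agent.P014Y.Lev
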